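import Vale.Agent.P284.H213.Q.AsmQ
import Vale.Agent.P284.H573.DK.FinRep
import Vale.Agent.P284.H119.Kaz

/-!
# P284, theorem T2: group assembly
-/

open scoped Manifold ContDiff Topology Pointwise ComplexConjugate ComplexOrder
open Filter Set Metric MeasureTheory

noncomputable section

namespace Vale.Agent.P284.H661.T

open Vale.Agent.P272.K Vale.Agent.P284.H248 Vale.Agent.P284.H894 Vale.Agent.P284.H894.G
  Vale.Agent.P284.H894.V Vale.Agent.P284.H894.W Vale.Agent.P284.H894.F Vale.Agent.P284.H998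
  Vale.Agent.P284.H213.Grp Vale.Agent.P284.H213.Q Vale.Agent.P284.H573.DK
  Vale.Agent.P284.H119.Kaz

/-- **CORE** of T2: Galois groups over `X` with finite linear images are Kazhdan groups. -/
def CoreT2 (D : Cls) : Prop :=
  ∀ (n : ℕ) (X : Type) [TopologicalSpace X] [T2Space X] [CompactSpace X] [ConnectedSpace X]
    [ChartedSpace (Cm n) X] [IsManifold 𝓘(ℂ, Cm n) ω X] (ι : Type) [Fintype ι] (_ : PJ n X ι)
    (_ : D n X) (w : Chart n X → Cm n → Matrix (Fin n) (Fin n) ℂ), IsKahler w →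
    ∀ (E Γ : Type) [TopologicalSpace E] [ConnectedSpace E] [Group Γ] [MulAction Γ E]
      (p : E → X), IsGalois Γ p → FinRep Γ → Kazhdan Γ

/-- **T2**: quotients of the fundamental group with finite linear images are Kazhdan groups. -/
def MainPiT2 (D : Cls) : Prop :=
  ∀ (n : ℕ) (X : Type) [TopologicalSpace X] [T2Space X] [CompactSpace X] [ConnectedSpace X]
    [ChartedSpace (Cm n) X] [IsManifold 𝓘(ℂ, Cm n) ω X] (ι : Type) [Fintype ι] (_ : PJ n X ι)
    (_ : D n X) (w : Chart n X → Cm n → Matrix (Fin n) (Fin n) ℂ), IsKahler w →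
    ∀ (x : X) (Q : Type) [Group Q] (f : FundamentalGroup X x →* Q), Function.Surjective f →
      FinRep Q → Kazhdan Q

theorem finRep_equiv {A B : Type} [Group A] [Group B] (e : A ≃* B) (h : FinRep B) : FinRep A := by
  intro V _ _ _ ρ
  refine (h V (ρ.comp e.symm.toMonoidHom)).subset ?_
  rintro _ ⟨a, rfl⟩
  exact ⟨e a, by simp⟩

theorem mainPiT2_of {D : Cls} (h : CoreT2 D) : MainPiT2 D := by
  intro n X _ _ _ _ _ _ ι _ J hD w hw x Q _ f hf hQ
  obtain ⟨Y, Γ, tY, hsc, gΓ, aΓ, π, e, hG⟩ := H977.exists_uc (n := n) X x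
  let f' : Γ →* Q := f.comp e.symm.toMonoidHom
  have hf' : Function.Surjective f' := hf.comp e.symm.surjective
  have hp₁ := H885.isGalois_toX hG f'.ker
  have hcon₁ : ConnectedSpace (H885.Quo Y f'.ker) := H885.connected_quo f'.ker
  let q : Γ ⧸ f'.ker ≃* Q := QuotientGroup.quotientKerEquivOfSurjective f' hf'
  have h1 := h n X ι J hD w hw (H885.Quo Y f'.ker) (Γ ⧸ f'.ker) _ hp₁ (finRep_equiv q hQ)
  exact h1.of_equiv q

end Vale.Agent.P284.H661.T
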