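import Vale.Agent.P284.H894.V.Spec
import Vale.Agent.P284.H619.Core0S
import Mathlib.Analysis.InnerProductSpace.l2Space

/-!
# P284, theorem T2 (property (T)): definitions and statements

`W` is a real Hilbert space with a countable Hilbert basis `e`, `π : Γ →* (W ≃ₗᵢ[ℝ] W)` an orthogonal
representation. The equivariant maps `E → W` are families `f a z` on the balls `Ω a` of `Coc` with
`f a z = π (κ a b z) (f b (T a b z))` (`f a z` is the value at the piece `(1, a)`; the value at `(γ, a)` is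
`π γ (f a z)`). All densities are sums over the basis of the densities of the components.
-/

open scoped Manifold ContDiff Topology Pointwise ComplexConjugate ComplexOrder InnerProductSpace
open Filter Set Metric MeasureTheory

noncomputable section

namespace Vale.Agent.P284.H661.T

open Vale.Agent.P272.K Vale.Agent.P284.H248 Vale.Agent.P284.H894 Vale.Agent.P284.H894.G
  Vale.Agent.P284.H894.V Vale.Agent.P284.H894.W Vale.Agent.P284.H573

/-! ### The base -/

section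
variable {n : ℕ} {Γ : Type} [Group Γ]

/-- the cocycle data of the base (trivial group) -/
def bs (C : Coc n Γ) : Coc n Unit where
  I := C.I
  fin := C.fin
  ne := C.ne
  c := C.c
  r := C.r
  r_pos := C.r_pos
  O := C.O
  T := C.T
  g := C.g
  κ := fun _ _ _ => ()
  O_open := C.O_open
  O_sub := C.O_sub
  O_self := C.O_self
  T_self := C.T_self
  g_self := C.g_self
  κ_self := fun _ _ _ => rfl
  T_mem := C.T_mem
  trans_mem := C.trans_mem
  trans_T := C.trans_T
  trans_g := C.trans_g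
  trans_κ := fun _ _ _ _ _ _ => rfl
  T_holo := C.T_holo
  g_holo := C.g_holo
  g_ne := C.g_ne
  κ_loc := fun _ _ _ _ => Eventually.of_forall fun _ => rfl
  cover := C.cover
  closed := C.closed
  N := {()}
  κ_mem := fun _ _ _ _ _ _ => Finset.mem_singleton_self _
  M := C.M
  M_one := C.M_one
  g_le := C.g_le
  T_le := C.T_le
  conn := fun P h γ a γ' b hP => by
    have := C.conn (fun _ a => P () a) (fun _ a b z h1 h2 h3 h4 => h () a b z h1 h2 h3 h4) 1 a 1 b hP
    exact this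

/-- the partition of unity of the base -/
def bsP {C : Coc n Γ} (P : PU C) : PU (bs C) where
  χ := P.χ
  smooth := P.smooth
  nonneg := P.nonneg
  sum_one := P.sum_one
  K := P.K
  compactK := P.compactK
  K_sub := P.K_sub
  supp := P.supp
  compat := P.compat

/-- the metric of the base -/
def bsK {C : Coc n Γ} (K : KM C) : KM (bs C) where
  w := K.w
  ku := K.ku
  change := K.change
  lam := K.lam
  lam_pos := K.lam_pos
  Lam := K.Lam
  low := K.low
  up := K.up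
  vol_up := K.vol_up
  vol_low := K.vol_low

/-- the integral over the base -/
def IntX {C : Coc n Γ} (P : PU C) (K : KM C) (G : C.I → Cm n → ℝ) : ℝ :=
  ∑ a, ∫ z in C.V a, P.χ a a z * G a z * vol (K.w a) z

/-- `G` is a continuous function on the base. -/
structure FamX (C : Coc n Γ) (G : C.I → Cm n → ℝ) : Prop where
  cont : ∀ a, ContinuousOn (G a) (C.Ω a)
  compat : ∀ a b, ∀ z ∈ C.O a b, G a z = G b (C.T a b z)

end

/-! ### Hilbert valued functions -/

section
variable {n : ℕ} {W : Type} [NormedAddCommGroup W] [InnerProductSpace ℝ W] {ι : Type}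

/-- component of a Hilbert valued function -/
def cp (c : W) (F : Cm n → W) : Cm n → ℝ := fun z => ⟪c, F z⟫_ℝ

/-- the Hilbert valued version of the density `D` -/
def sm [CompleteSpace W] (e : HilbertBasis ι ℝ W) (D : (Cm n → ℝ) → (Cm n → ℝ) → Cm n → ℝ)
    (f h : Cm n → W) (z : Cm n) : ℝ := ∑' i, D (cp (e i) f) (cp (e i) h) z

/-- the real coordinate vector number `d` of `ℂⁿ` -/
def dir (d : Fin n × Bool) : Cm n := Pi.single d.1 (if d.2 then Complex.I else 1)

/-- the second derivative in the directions `d`, `d'` -/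
def X2 (d d' : Fin n × Bool) (F : Cm n → W) (z : Cm n) : W :=
  fderiv ℝ (fun y => fderiv ℝ F y (dir d')) z (dir d)

/-- the Laplacian of a Hilbert valued function: `⟪c, lapW w F z⟫ = lap w (cp c F) z` -/
def lapW (w : Cm n → Matrix (Fin n) (Fin n) ℂ) (F : Cm n → W) (z : Cm n) : W :=
  ∑ j, ∑ k, (1 / 4 : ℝ) •
    (((w z)⁻¹ k j).re • (X2 (j, false) (k, false) F z + X2 (j, true) (k, true) F z) -
      ((w z)⁻¹ k j).im • (X2 (j, false) (k, true) F z - X2 (j, true) (k, false) F z))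

end

section
variable {n : ℕ} {Γ : Type} [Group Γ] {W : Type} [NormedAddCommGroup W] [InnerProductSpace ℝ W]
  {ι : Type}

/-- smooth equivariant families -/
structure ET (C : Coc n Γ) (π : Γ →* (W ≃ₗᵢ[ℝ] W)) (f : C.I → Cm n → W) : Prop where
  smooth : ∀ a, ∀ z ∈ C.Ω a, ContDiffAt ℝ ∞ (f a) z
  compat : ∀ a b, ∀ z ∈ C.O a b, f a z = π (C.κ a b z) (f b (C.T a b z))
  out : ∀ a, ∀ z ∉ C.Ω a, f a z = 0

/-- scalar product -/
def ipW {C : Coc n Γ} (P : PU C) (K : KM C) (f h : C.I → Cm n → W) : ℝ :=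
  IntX P K fun a z => ⟪f a z, h a z⟫_ℝ

/-- density of the energy -/
def grW [CompleteSpace W] (e : HilbertBasis ι ℝ W) {C : Coc n Γ} (K : KM C) (f h : C.I → Cm n → W)
    (a : C.I) (z : Cm n) : ℝ := sm e (gr (K.w a)) (f a) (h a) z

/-- density of `⟨∂∂̄f, ∂∂̄h⟩` -/
def hhW [CompleteSpace W] (e : HilbertBasis ι ℝ W) {C : Coc n Γ} (K : KM C) (f h : C.I → Cm n → W)
    (a : C.I) (z : Cm n) : ℝ := sm e (hh (K.w a)) (f a) (h a) z

/-- the Laplacian -/
def LapW {C : Coc n Γ} (K : KM C) (f : C.I → Cm n → W) (a : C.I) : Cm n → W :=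
  (C.Ω a).indicator (lapW (K.w a) (f a))

/-- `ρ` has no invariant vectors -/
def NoInv (π : Γ →* (W ≃ₗᵢ[ℝ] W)) : Prop := ∀ x : W, (∀ g, π g x = x) → x = 0

end

/-! ### The blocks -/

/-- **T4**: equivariant families supported in one piece. -/
def T4Stmt : Prop :=
  ∀ (n : ℕ) (Γ : Type) [Group Γ] (C : Coc n Γ) (W : Type) [NormedAddCommGroup W]
    [InnerProductSpace ℝ W] [CompleteSpace W] (π : Γ →* (W ≃ₗᵢ[ℝ] W)) (b : C.I) (F : Cm n → W),
    ContDiff ℝ ∞ F → HasCompactSupport F → tsupport F ⊆ C.V b →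
    ∃ f : C.I → Cm n → W, ET C π f ∧ (∀ a z, f a z ≠ 0 → z ∈ C.O a b ∧ C.T a b z ∈ tsupport F) ∧
      (∀ a, ∀ z ∈ C.O a b, f a z = π (C.κ a b z) (F (C.T a b z))) ∧ ∀ z ∈ C.Ω b, f b z = F z

/-- **T5**: global identities. -/
structure T5Concl : Prop where
  fam : ∀ {n : ℕ} {Γ : Type} [Group Γ] {C : Coc n Γ} (K : KM C) {W : Type} [NormedAddCommGroup W]
    [InnerProductSpace ℝ W] [CompleteSpace W] {ι : Type} [Countable ι] (e : HilbertBasis ι ℝ W)
    (π : Γ →* (W ≃ₗᵢ[ℝ] W)) (f h : C.I → Cm n → W), ET C π f → ET C π h →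
    FamX C (fun a z => ⟪f a z, h a z⟫_ℝ) ∧ FamX C (grW e K f h) ∧ FamX C (hhW e K f h) ∧
      ET C π (LapW K f)
  ibp : ∀ {n : ℕ} {Γ : Type} [Group Γ] {C : Coc n Γ} (P : PU C) (K : KM C) {W : Type}
    [NormedAddCommGroup W] [InnerProductSpace ℝ W] [CompleteSpace W] {ι : Type} [Countable ι]
    (e : HilbertBasis ι ℝ W) (π : Γ →* (W ≃ₗᵢ[ℝ] W)) (f h : C.I → Cm n → W), ET C π f → ET C π h →
    ipW P K (LapW K f) h = -IntX P K (grW e K f h)
  kahler : ∀ {n : ℕ} {Γ : Type} [Group Γ] {C : Coc n Γ} (P : PU C) (K : KM C) {W : Type}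
    [NormedAddCommGroup W] [InnerProductSpace ℝ W] [CompleteSpace W] {ι : Type} [Countable ι]
    (e : HilbertBasis ι ℝ W) (π : Γ →* (W ≃ₗᵢ[ℝ] W)) (f h : C.I → Cm n → W), ET C π f → ET C π h →
    ipW P K (LapW K f) (LapW K h) = IntX P K (hhW e K f h)

/-- **T7**: density of the range of `l - Lap` for large `l`. -/
def T7Concl : Prop :=
  ∀ (n : ℕ) (Γ : Type) [Group Γ] (C : Coc n Γ) (P : PU C) (K : KM C), ∃ l₀ : ℝ, 0 < l₀ ∧
    ∀ (W : Type) [NormedAddCommGroup W] [InnerProductSpace ℝ W] [CompleteSpace W] (ι : Type)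
    [Countable ι] (_ : HilbertBasis ι ℝ W) (π : Γ →* (W ≃ₗᵢ[ℝ] W)),
    ∀ l : ℝ, l₀ ≤ l → ∀ f, ET C π f → ∀ δ : ℝ, 0 < δ → ∃ v, ET C π v ∧
      IntX P K (fun a z => ‖l • v a z - LapW K v a z - f a z‖ ^ 2) < δ

/-- **T9**: bounded in `L²` and energy `→ 0` implies weakly `→ 0`, if there are no invariant vectors. -/
def T9Concl : Prop :=
  ∀ (n : ℕ) (Γ : Type) [Group Γ] (C : Coc n Γ) (P : PU C) (K : KM C) (W : Type)
    [NormedAddCommGroup W] [InnerProductSpace ℝ W] [CompleteSpace W] (ι : Type) [Countable ι]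
    (e : HilbertBasis ι ℝ W) (π : Γ →* (W ≃ₗᵢ[ℝ] W)), NoInv π →
    ∀ h : ℕ → C.I → Cm n → W, (∀ j, ET C π (h j)) →
    (∃ B : ℝ, ∀ j, ipW P K (h j) (h j) ≤ B) →
    Tendsto (fun j => IntX P K (grW e K (h j) (h j))) atTop (𝓝 0) → ∀ f, ET C π f →
    Tendsto (fun j => ipW P K (h j) f) atTop (𝓝 0)

/-- **T10**: the start. `C.N` is the finite set of the values of the cocycle on the balls `V a`. -/
def T10Concl : Prop :=
  ∀ (n : ℕ) (Γ : Type) [Group Γ] (C : Coc n Γ) (P : PU C) (K : KM C), ∃ c : ℝ, 0 < c ∧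
    ∀ (W : Type) [NormedAddCommGroup W] [InnerProductSpace ℝ W] [CompleteSpace W] (ι : Type)
    [Countable ι] (e : HilbertBasis ι ℝ W) (π : Γ →* (W ≃ₗᵢ[ℝ] W)) (x : W) (η : ℝ), ‖x‖ = 1 →
      η ≤ 1 / 2 → (∀ g ∈ C.N, ‖π g x - x‖ ≤ η) →
      ∃ f, ET C π f ∧ IntX P K (grW e K f f) ≤ c * η ^ 2 ∧ 1 ≤ c * ipW P K f f

/-- **T13**: almost pluriharmonic equivariant families. -/
def T13Concl : Prop :=
  ∀ (n : ℕ) (Γ : Type) [Group Γ] (C : Coc n Γ) (P : PU C) (K : KM C) (ε : ℝ), 0 < ε →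
    ∃ η : ℝ, 0 < η ∧
    ∀ (W : Type) [NormedAddCommGroup W] [InnerProductSpace ℝ W] [CompleteSpace W] (ι : Type)
    [Countable ι] (e : HilbertBasis ι ℝ W) (π : Γ →* (W ≃ₗᵢ[ℝ] W)) (x : W), NoInv π → ‖x‖ = 1 →
      (∀ g ∈ C.N, ‖π g x - x‖ ≤ η) →
      ∃ f, ET C π f ∧ IntX P K (hhW e K f f) < ε * IntX P K (grW e K f f)

/-- Kazhdan's property (T) for a group `Γ` (with real orthogonal representations: equivalent to the
definition with unitary representations): there are a finite set `S` and `η > 0` such that an orthogonal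
representation without nonzero invariant vector has no `(S, η)`-invariant unit vector. -/
def KazT (Γ : Type) [Group Γ] : Prop :=
  ∃ (S : Finset Γ) (η : ℝ), 0 < η ∧ ∀ (W : Type) [NormedAddCommGroup W] [InnerProductSpace ℝ W]
    [CompleteSpace W] (π : Γ →* (W ≃ₗᵢ[ℝ] W)), NoInv π → ∀ x : W, ‖x‖ = 1 →
    ∃ g ∈ S, η ≤ ‖π g x - x‖

/-- The conclusion of `H619.Lim0Stmt` for given data. -/
def Lim0C (n : ℕ) (X : Type) [TopologicalSpace X] [ChartedSpace (Cm n) X] (E Γ : Type)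
    [TopologicalSpace E] [Group Γ] [MulAction Γ E] (p : E → X) : Prop :=
  ∃ (W : Type) (_ : NormedAddCommGroup W) (_ : InnerProductSpace ℂ W) (_ : CompleteSpace W)
    (π : Γ →* (W ≃ₗᵢ[ℂ] W)) (Θ : E → Chart n X → (Cm n →L[ℂ] W)) (u : E → W),
    H619.CForm n p W Θ ∧ H619.Equi p π Θ ∧ H619.Pot0 p Θ u ∧
    (∀ g : Γ, ∃ b : W, ∀ y, u (g • y) = π g (u y) + b) ∧
    ∃ (y : E) (e : Chart n X), At e (p y) ∧ Θ y e ≠ 0

/-- **T14**: the limit: if `Γ` does not have property (T). -/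
def LimTStmt : Prop :=
  ∀ (n : ℕ) (X : Type) [TopologicalSpace X] [T2Space X] [CompactSpace X] [ConnectedSpace X]
    [ChartedSpace (Cm n) X] [IsManifold 𝓘(ℂ, Cm n) ω X]
    (w : Chart n X → Cm n → Matrix (Fin n) (Fin n) ℂ), IsKahler w →
    ∀ (E Γ : Type) [TopologicalSpace E] [ConnectedSpace E] [Group Γ] [MulAction Γ E]
      (p : E → X), IsGalois Γ p → ¬ KazT Γ → Lim0C n X E Γ p

end Vale.Agent.P284.H661.T
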