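import Vale.Agent.P284.H661.T.TS
import Vale.Agent.P284.H639.V5
import Vale.Agent.P284.H730.VP

/-!
# P284, theorem T2: jets of Hilbert valued functions and densities
-/

open scoped Manifold ContDiff Topology Pointwise ComplexConjugate ComplexOrder InnerProductSpace
open Filter Set Metric MeasureTheory

noncomputable section

namespace Vale.Agent.P284.H661.T

open Vale.Agent.P272.K Vale.Agent.P284.H248 Vale.Agent.P284.H894 Vale.Agent.P284.H894.G
  Vale.Agent.P284.H894.V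

/-- index of the real 2-jet -/
abbrev JI (n : ℕ) := Unit ⊕ ((Fin n × Bool) ⊕ ((Fin n × Bool) × (Fin n × Bool)))

section jets
variable {n : ℕ} {W : Type} [NormedAddCommGroup W] [InnerProductSpace ℝ W]
  {W' : Type} [NormedAddCommGroup W'] [InnerProductSpace ℝ W']
  {F G : Cm n → W} {f h : Cm n → ℝ} {z : Cm n} {U : Set (Cm n)}

/-- the real 2-jet: value, first and second derivatives in the coordinate directions -/
def jx (μ : JI n) (F : Cm n → W) (z : Cm n) : W :=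
  match μ with
  | .inl _ => F z
  | .inr (.inl d) => fderiv ℝ F z (dir d)
  | .inr (.inr p) => X2 p.1 p.2 F z

theorem one_le_two' : (1 : WithTop ℕ∞) ≤ 2 := by norm_num

theorem two_le_inf : (2 : WithTop ℕ∞) ≤ ∞ := Vale.Agent.P284.H639.V.two_le

theorem diff_fd (hF : ContDiffAt ℝ 2 F z) : DifferentiableAt ℝ (fderiv ℝ F) z :=
  (hF.fderiv_right (m := 1) (by norm_num)).differentiableAt one_ne_zero

theorem X2_eq (hF : ContDiffAt ℝ 2 F z) (d d' : Fin n × Bool) :
    X2 d d' F z = fderiv ℝ (fderiv ℝ F) z (dir d) (dir d') := by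
  unfold X2
  have h := ((diff_fd hF).hasFDerivAt.clm_apply (hasFDerivAt_const (dir d') z)).fderiv
  rw [h]
  simp

/-- jets commute with continuous linear maps -/
theorem jx_clm (μ : JI n) (L : W →L[ℝ] W') (hF : ContDiffAt ℝ 2 F z) :
    jx μ (fun y => L (F y)) z = L (jx μ F z) := by
  have hd : DifferentiableAt ℝ F z := hF.differentiableAt two_ne_zero
  have key : ∀ᶠ y in 𝓝 z, fderiv ℝ (fun y => L (F y)) y = L.comp (fderiv ℝ F y) := by
    filter_upwards [hF.eventually (by simp)] with y hy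
    exact (L.hasFDerivAt.comp y (hy.differentiableAt two_ne_zero).hasFDerivAt).fderiv
  rcases μ with _ | d | p
  · rfl
  · show fderiv ℝ (fun y => L (F y)) z (dir d) = _
    rw [key.self_of_nhds]; rfl
  · show X2 _ _ _ _ = L (X2 _ _ _ _)
    unfold X2
    have e : (fun y => fderiv ℝ (fun y => L (F y)) y (dir p.2)) =ᶠ[𝓝 z]
        fun y => L (fderiv ℝ F y (dir p.2)) := by
      filter_upwards [key] with y hy
      rw [hy]; rfl
    rw [e.fderiv_eq]
    have hg : DifferentiableAt ℝ (fun y => fderiv ℝ F y (dir p.2)) z :=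
      (diff_fd hF).clm_apply (differentiableAt_const _)
    have h2 : fderiv ℝ (fun y => L (fderiv ℝ F y (dir p.2))) z =
        L.comp (fderiv ℝ (fun y => fderiv ℝ F y (dir p.2)) z) :=
      (L.hasFDerivAt.comp z hg.hasFDerivAt).fderiv
    rw [h2]; rfl

theorem jx_congr (μ : JI n) (e : F =ᶠ[𝓝 z] G) : jx μ F z = jx μ G z := by
  rcases μ with _ | d | p
  · exact e.self_of_nhds
  · show fderiv ℝ F z _ = fderiv ℝ G z _
    rw [e.fderiv_eq]
  · show X2 _ _ _ _ = X2 _ _ _ _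
    unfold X2
    have : (fun y => fderiv ℝ F y (dir p.2)) =ᶠ[𝓝 z] fun y => fderiv ℝ G y (dir p.2) := by
      filter_upwards [e.fderiv (𝕜 := ℝ)] with y hy
      rw [hy]
    rw [this.fderiv_eq]

theorem jx_smooth (μ : JI n) (hF : ContDiffAt ℝ ∞ F z) : ContDiffAt ℝ ∞ (jx μ F) z := by
  have h1 : ∀ v : Cm n, ∀ y, ContDiffAt ℝ ∞ F y → ContDiffAt ℝ ∞ (fun y => fderiv ℝ F y v) y :=
    fun v y hy => (hy.fderiv_right (m := ∞) le_rfl).clm_apply contDiffAt_const
  rcases μ with _ | d | p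
  · exact hF
  · exact h1 _ z hF
  · show ContDiffAt ℝ ∞ (fun y => X2 p.1 p.2 F y) z
    unfold X2
    exact ((h1 (dir p.2) z hF).fderiv_right (m := ∞) le_rfl).clm_apply contDiffAt_const

theorem jx_cont (μ : JI n) (hF : ∀ z ∈ U, ContDiffAt ℝ ∞ F z) : ContinuousOn (jx μ F) U :=
  fun z hz => (jx_smooth μ (hF z hz)).continuousAt.continuousWithinAt

theorem cp_smooth (c : W) {k : WithTop ℕ∞} (hF : ContDiffAt ℝ k F z) : ContDiffAt ℝ k (cp c F) z :=
  contDiffAt_const.inner ℝ hF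

theorem jx_cp (μ : JI n) (c : W) (hF : ContDiffAt ℝ 2 F z) :
    jx μ (cp c F) z = ⟪c, jx μ F z⟫_ℝ :=
  jx_clm μ (innerSL ℝ c) hF

theorem jx_comp_iso (μ : JI n) (L : W ≃ₗᵢ[ℝ] W) (hF : ContDiffAt ℝ 2 F z) :
    jx μ (fun y => L (F y)) z = L (jx μ F z) :=
  jx_clm μ (L.toContinuousLinearEquiv : W →L[ℝ] W) hF

end jets

/-! ### Linear jets and bilinear densities with continuous coefficients -/

section dens
variable {n : ℕ} {U : Set (Cm n)}

/-- `Λ` is a complex valued linear jet with continuous coefficients on `U` -/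
def IsJC (U : Set (Cm n)) (Λ : (Cm n → ℝ) → Cm n → ℂ) : Prop :=
  ∃ c : JI n → Cm n → ℂ, (∀ μ, ContinuousOn (c μ) U) ∧
    ∀ (f : Cm n → ℝ) (z : Cm n), z ∈ U → ContDiffAt ℝ 2 f z →
      Λ f z = ∑ μ, c μ z * (jx μ f z : ℝ)

/-- `D` is a bilinear density with continuous coefficients on `U` -/
def IsJD (U : Set (Cm n)) (D : (Cm n → ℝ) → (Cm n → ℝ) → Cm n → ℝ) : Prop :=
  ∃ b : JI n → JI n → Cm n → ℝ, (∀ μ ν, ContinuousOn (b μ ν) U) ∧
    ∀ (f h : Cm n → ℝ) (z : Cm n), z ∈ U → ContDiffAt ℝ 2 f z → ContDiffAt ℝ 2 h z →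
      D f h z = ∑ μ, ∑ ν, b μ ν z * (jx μ f z * jx ν h z)

theorem IsJC.jet (μ : JI n) : IsJC U fun f z => ((jx μ f z : ℝ) : ℂ) := by
  classical
  refine ⟨fun ν _ => if ν = μ then 1 else 0, fun ν => continuousOn_const, fun f z _ _ => ?_⟩
  simp

theorem IsJC.mul_left {Λ : (Cm n → ℝ) → Cm n → ℂ} (h : IsJC U Λ) {g : Cm n → ℂ}
    (hg : ContinuousOn g U) : IsJC U fun f z => g z * Λ f z := by
  obtain ⟨c, hc, h⟩ := h
  refine ⟨fun μ z => g z * c μ z, fun μ => hg.mul (hc μ), fun f z hz hf => ?_⟩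
  show g z * Λ f z = _
  rw [h f z hz hf, Finset.mul_sum]
  exact Finset.sum_congr rfl fun μ _ => by ring

theorem IsJC.add {Λ M : (Cm n → ℝ) → Cm n → ℂ} (h : IsJC U Λ) (h' : IsJC U M) :
    IsJC U fun f z => Λ f z + M f z := by
  obtain ⟨c, hc, h⟩ := h
  obtain ⟨c', hc', h'⟩ := h'
  refine ⟨fun μ z => c μ z + c' μ z, fun μ => (hc μ).add (hc' μ), fun f z hz hf => ?_⟩
  show Λ f z + M f z = _
  rw [h f z hz hf, h' f z hz hf, ← Finset.sum_add_distrib]
  exact Finset.sum_congr rfl fun μ _ => by ring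

theorem IsJC.congr {Λ M : (Cm n → ℝ) → Cm n → ℂ} (h : IsJC U Λ)
    (e : ∀ (f : Cm n → ℝ) (z : Cm n), z ∈ U → ContDiffAt ℝ 2 f z → M f z = Λ f z) : IsJC U M := by
  obtain ⟨c, hc, h⟩ := h
  exact ⟨c, hc, fun f z hz hf => (e f z hz hf).trans (h f z hz hf)⟩

theorem IsJD.re_mul {Λ M : (Cm n → ℝ) → Cm n → ℂ} (h : IsJC U Λ) (h' : IsJC U M) :
    IsJD U fun f g z => (Λ f z * M g z).re := by
  obtain ⟨c, hc, h⟩ := h
  obtain ⟨c', hc', h'⟩ := h'
  refine ⟨fun μ ν z => (c μ z * c' ν z).re,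
    fun μ ν => Complex.continuous_re.comp_continuousOn ((hc μ).mul (hc' ν)), fun f g z hz hf hg => ?_⟩
  show (Λ f z * M g z).re = _
  rw [h f z hz hf, h' g z hz hg, Finset.sum_mul_sum, Complex.re_sum]
  refine Finset.sum_congr rfl fun μ _ => ?_
  rw [Complex.re_sum]
  refine Finset.sum_congr rfl fun ν _ => ?_
  have : c μ z * (jx μ f z : ℝ) * (c' ν z * (jx ν g z : ℝ)) =
    ((jx μ f z * jx ν g z : ℝ) : ℂ) * (c μ z * c' ν z) := by push_cast; ring
  rw [this, Complex.re_ofReal_mul]; ring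

theorem IsJD.zero : IsJD U fun _ _ _ => 0 :=
  ⟨fun _ _ _ => 0, fun _ _ => continuousOn_const, fun f h z _ _ _ => by simp⟩

theorem IsJD.add {D D' : (Cm n → ℝ) → (Cm n → ℝ) → Cm n → ℝ} (h : IsJD U D) (h' : IsJD U D') :
    IsJD U fun f g z => D f g z + D' f g z := by
  obtain ⟨b, hb, h⟩ := h
  obtain ⟨b', hb', h'⟩ := h'
  refine ⟨fun μ ν z => b μ ν z + b' μ ν z, fun μ ν => (hb μ ν).add (hb' μ ν),
    fun f g z hz hf hg => ?_⟩
  show D f g z + D' f g z = _
  rw [h f g z hz hf hg, h' f g z hz hf hg, ← Finset.sum_add_distrib]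
  refine Finset.sum_congr rfl fun μ _ => ?_
  rw [← Finset.sum_add_distrib]
  exact Finset.sum_congr rfl fun ν _ => by ring

theorem IsJD.sum {κ : Type*} (s : Finset κ) {D : κ → (Cm n → ℝ) → (Cm n → ℝ) → Cm n → ℝ}
    (h : ∀ i ∈ s, IsJD U (D i)) : IsJD U fun f g z => ∑ i ∈ s, D i f g z := by
  classical
  induction s using Finset.induction_on with
  | empty => simpa using IsJD.zero
  | insert i s hi ih =>
    have h1 := (h i (Finset.mem_insert_self i s)).add
      (ih fun j hj => h j (Finset.mem_insert_of_mem hj))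
    simpa only [Finset.sum_insert hi] using h1

theorem IsJD.congr {D D' : (Cm n → ℝ) → (Cm n → ℝ) → Cm n → ℝ} (h : IsJD U D)
    (e : ∀ (f g : Cm n → ℝ) (z : Cm n), z ∈ U → D' f g z = D f g z) : IsJD U D' := by
  obtain ⟨b, hb, h⟩ := h
  exact ⟨b, hb, fun f g z hz hf hg => (e f g z hz).trans (h f g z hz hf hg)⟩

theorem IsJD.mul_left {D : (Cm n → ℝ) → (Cm n → ℝ) → Cm n → ℝ} (h : IsJD U D) {g : Cm n → ℝ}
    (hg : ContinuousOn g U) : IsJD U fun f h z => g z * D f h z := by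
  obtain ⟨b, hb, h⟩ := h
  refine ⟨fun μ ν z => g z * b μ ν z, fun μ ν => hg.mul (hb μ ν), fun f k z hz hf hk => ?_⟩
  show g z * D f k z = _
  rw [h f k z hz hf hk, Finset.mul_sum]
  refine Finset.sum_congr rfl fun μ _ => ?_
  rw [Finset.mul_sum]
  exact Finset.sum_congr rfl fun ν _ => by ring

theorem IsJD.mono {D : (Cm n → ℝ) → (Cm n → ℝ) → Cm n → ℝ} (h : IsJD U D) {V : Set (Cm n)}
    (hV : V ⊆ U) : IsJD V D := by
  obtain ⟨b, hb, h⟩ := h
  exact ⟨b, fun μ ν => (hb μ ν).mono hV, fun f g z hz => h f g z (hV hz)⟩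

/-! #### The Wirtinger derivatives -/

theorem fderiv_ofReal' (f : Cm n → ℝ) (z v : Cm n) :
    fderiv ℝ (fun y => (f y : ℂ)) z v = ((fderiv ℝ f z v : ℝ) : ℂ) := by
  by_cases h : DifferentiableAt ℝ f z
  · have : fderiv ℝ (fun y => (f y : ℂ)) z = Complex.ofRealCLM.comp (fderiv ℝ f z) :=
      (Complex.ofRealCLM.hasFDerivAt.comp z h.hasFDerivAt).fderiv
    rw [this]; rfl
  · have h' : ¬ DifferentiableAt ℝ (fun y => (f y : ℂ)) z := fun hc => h
      (Complex.reCLM.differentiableAt.comp z hc)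
    rw [fderiv_zero_of_not_differentiableAt h, fderiv_zero_of_not_differentiableAt h']
    simp

theorem jc_dz (j : Fin n) : IsJC U fun f z => dz j (fun y => (f y : ℂ)) z := by
  refine IsJC.congr (((IsJC.jet (U := U) (.inr (.inl (j, false)))).mul_left
    (g := fun _ => (1 / 2 : ℂ)) continuousOn_const).add
    ((IsJC.jet (.inr (.inl (j, true)))).mul_left (g := fun _ => (-(Complex.I / 2) : ℂ))
      continuousOn_const)) fun f z _ _ => ?_
  simp only [dz, fderiv_ofReal', jx, dir]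
  simp only [Bool.false_eq_true, if_false, if_true]
  ring

theorem jc_dzb (j : Fin n) : IsJC U fun f z => dzb j (fun y => (f y : ℂ)) z := by
  refine IsJC.congr (((IsJC.jet (U := U) (.inr (.inl (j, false)))).mul_left
    (g := fun _ => (1 / 2 : ℂ)) continuousOn_const).add
    ((IsJC.jet (.inr (.inl (j, true)))).mul_left (g := fun _ => ((Complex.I / 2) : ℂ))
      continuousOn_const)) fun f z _ _ => ?_
  simp only [dzb, fderiv_ofReal', jx, dir]
  simp only [Bool.false_eq_true, if_false, if_true]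
  ring

theorem cHess_X2 {f : Cm n → ℝ} {z : Cm n} (hf : ContDiffAt ℝ 2 f z) (j k : Fin n) :
    cHess f z j k = (1 / 4 : ℂ) *
      (((X2 (j, false) (k, false) f z + X2 (j, true) (k, true) f z : ℝ) : ℂ) +
        Complex.I * ((X2 (j, false) (k, true) f z - X2 (j, true) (k, false) f z : ℝ) : ℂ)) := by
  have e1 : (dzb k fun y => (f y : ℂ)) = fun y => (1 / 2 : ℂ) *
      (((fderiv ℝ f y (dir (k, false)) : ℝ) : ℂ) +
        Complex.I * ((fderiv ℝ f y (dir (k, true)) : ℝ) : ℂ)) := by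
    funext y
    simp only [dzb, fderiv_ofReal', dir, Bool.false_eq_true, if_false, if_true]
    ring
  have hd : ∀ v : Cm n, DifferentiableAt ℝ (fun y => fderiv ℝ f y v) z := fun v =>
    (diff_fd hf).clm_apply (differentiableAt_const _)
  have hdc : ∀ v : Cm n, DifferentiableAt ℝ (fun y => ((fderiv ℝ f y v : ℝ) : ℂ)) z := fun v =>
    Complex.ofRealCLM.differentiableAt.comp z (hd v)
  have e2 : ∀ v : Cm n, fderiv ℝ (dzb k fun y => (f y : ℂ)) z v = (1 / 2 : ℂ) *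
      (((fderiv ℝ (fun y => fderiv ℝ f y (dir (k, false))) z v : ℝ) : ℂ) +
        Complex.I * ((fderiv ℝ (fun y => fderiv ℝ f y (dir (k, true))) z v : ℝ) : ℂ)) := by
    intro v
    rw [e1]
    have h3 := (((hdc (dir (k, false))).hasFDerivAt.add
      ((hdc (dir (k, true))).hasFDerivAt.const_mul Complex.I)).const_mul (1 / 2 : ℂ)).fderiv
    have h4 : fderiv ℝ (fun y => (1 / 2 : ℂ) * (((fderiv ℝ f y (dir (k, false)) : ℝ) : ℂ) +
        Complex.I * ((fderiv ℝ f y (dir (k, true)) : ℝ) : ℂ))) z = _ := h3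
    rw [h4]
    simp only [smul_apply, add_apply, smul_eq_mul,
      fderiv_ofReal']
  show dz j (dzb k fun y => (f y : ℂ)) z = _
  simp only [dz, e2]
  have h5 : (Pi.single j 1 : Cm n) = dir (j, false) := by simp [dir]
  have h6 : (Pi.single j Complex.I : Cm n) = dir (j, true) := by simp [dir]
  rw [h5, h6]
  unfold X2
  push_cast
  linear_combination (-(1 / 4 : ℂ) * ((fderiv ℝ (fun y => fderiv ℝ f y (dir (k, true))) z)
    (dir (j, true)) : ℝ)) * Complex.I_sq

theorem jc_cHess (j k : Fin n) : IsJC U fun f z => cHess f z j k := by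
  have J := fun p => IsJC.jet (U := U) (n := n) (.inr (.inr p))
  refine IsJC.congr ((((J ((j, false), (k, false))).add (J ((j, true), (k, true)))).mul_left
    (g := fun _ => (1 / 4 : ℂ)) continuousOn_const).add
    (((J ((j, false), (k, true))).add ((J ((j, true), (k, false))).mul_left
      (g := fun _ => (-1 : ℂ)) continuousOn_const)).mul_left
      (g := fun _ => ((Complex.I / 4) : ℂ)) continuousOn_const)) fun f z _ hf => ?_
  simp only [cHess_X2 hf, jx]
  push_cast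
  ring

/-! #### `gr`, `hh` -/

theorem inv_cont {w : Cm n → Matrix (Fin n) (Fin n) ℂ} (hw : KU U w) (i j : Fin n) :
    ContinuousOn (fun z => (w z)⁻¹ i j) U := fun z hz =>
  (Vale.Agent.P284.H639.V.KU_inv hw hz i j).continuousAt.continuousWithinAt

theorem jd_gr {w : Cm n → Matrix (Fin n) (Fin n) ℂ} (hw : KU U w) : IsJD U (gr w) := by
  have h : IsJD U fun f g z => ∑ j, ∑ k, (((w z)⁻¹ k j * dz j (fun y => (f y : ℂ)) z) *
      dzb k (fun y => (g y : ℂ)) z).re :=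
    IsJD.sum _ fun j _ => IsJD.sum _ fun k _ =>
      IsJD.re_mul ((jc_dz j).mul_left (inv_cont hw k j)) (jc_dzb k)
  refine h.congr fun f g z _ => ?_
  simp only [gr, Complex.re_sum]

theorem jd_hh {w : Cm n → Matrix (Fin n) (Fin n) ℂ} (hw : KU U w) : IsJD U (hh w) := by
  have h : IsJD U fun f g z => ∑ i, ∑ k, ∑ j, ∑ l, ((((w z)⁻¹ i j * cHess f z j k)) *
      ((w z)⁻¹ k l * cHess g z l i)).re :=
    IsJD.sum _ fun i _ => IsJD.sum _ fun k _ => IsJD.sum _ fun j _ => IsJD.sum _ fun l _ =>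
      IsJD.re_mul ((jc_cHess j k).mul_left (inv_cont hw i j))
        ((jc_cHess l i).mul_left (inv_cont hw k l))
  refine h.congr fun f g z _ => ?_
  simp only [hh, Matrix.trace, Matrix.diag_apply, Matrix.mul_apply, Finset.sum_mul_sum,
    Complex.re_sum]

/-- the density `f h` -/
theorem jd_val : IsJD U fun f h z => f z * h z := by
  refine (IsJD.re_mul (IsJC.jet (U := U) (n := n) (.inl ())) (IsJC.jet (.inl ()))).congr
    fun f g z _ => ?_
  simp only [jx, ← Complex.ofReal_mul, Complex.ofReal_re]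

end dens

/-! ### Summation over the basis -/

section basis
variable {n : ℕ} {U : Set (Cm n)} {W : Type} [NormedAddCommGroup W] [InnerProductSpace ℝ W]
  {ι : Type} {F G F' G' : Cm n → W} {z : Cm n}
  {D : (Cm n → ℝ) → (Cm n → ℝ) → Cm n → ℝ}

theorem hasSum_ip (e : HilbertBasis ι ℝ W) (x y : W) :
    HasSum (fun i => ⟪e i, x⟫_ℝ * ⟪e i, y⟫_ℝ) ⟪x, y⟫_ℝ := by
  have h := e.hasSum_inner_mul_inner x y
  simpa only [real_inner_comm x] using h

variable (e : HilbertBasis ι ℝ W)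

theorem hasSum_jd {b : JI n → JI n → Cm n → ℝ}
    (hb : ∀ (f h : Cm n → ℝ) (z : Cm n), z ∈ U → ContDiffAt ℝ 2 f z → ContDiffAt ℝ 2 h z →
      D f h z = ∑ μ, ∑ ν, b μ ν z * (jx μ f z * jx ν h z)) (hz : z ∈ U)
    (hF : ContDiffAt ℝ 2 F z) (hG : ContDiffAt ℝ 2 G z) :
    HasSum (fun i => D (cp (e i) F) (cp (e i) G) z)
      (∑ μ, ∑ ν, b μ ν z * ⟪jx μ F z, jx ν G z⟫_ℝ) := by
  have h : (fun i => D (cp (e i) F) (cp (e i) G) z) =
      fun i => ∑ μ, ∑ ν, b μ ν z * (⟪e i, jx μ F z⟫_ℝ * ⟪e i, jx ν G z⟫_ℝ) := by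
    funext i
    rw [hb _ _ z hz (cp_smooth _ hF) (cp_smooth _ hG)]
    simp only [jx_cp _ _ hF, jx_cp _ _ hG]
  rw [h]
  exact hasSum_sum fun μ _ => hasSum_sum fun ν _ => (hasSum_ip e _ _).mul_left _

theorem cp_congr (c : W) (h : F =ᶠ[𝓝 z] F') : cp c F =ᶠ[𝓝 z] cp c F' := by
  filter_upwards [h] with y hy
  simp only [cp, hy]

theorem jx_add (μ : JI n) (hF : ContDiffAt ℝ 2 F z) (hG : ContDiffAt ℝ 2 G z) :
    jx μ (fun y => F y + G y) z = jx μ F z + jx μ G z := by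
  have key : ∀ᶠ y in 𝓝 z, fderiv ℝ (fun y => F y + G y) y = fderiv ℝ F y + fderiv ℝ G y := by
    filter_upwards [hF.eventually (by simp), hG.eventually (by simp)] with y h1 h2
    exact ((h1.differentiableAt two_ne_zero).hasFDerivAt.add
      (h2.differentiableAt two_ne_zero).hasFDerivAt).fderiv
  rcases μ with _ | d | p
  · rfl
  · show fderiv ℝ (fun y => F y + G y) z (dir d) = _
    rw [key.self_of_nhds]; rfl
  · show X2 _ _ _ _ = X2 _ _ _ _ + X2 _ _ _ _
    unfold X2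
    have e : (fun y => fderiv ℝ (fun y => F y + G y) y (dir p.2)) =ᶠ[𝓝 z]
        fun y => fderiv ℝ F y (dir p.2) + fderiv ℝ G y (dir p.2) := by
      filter_upwards [key] with y hy
      rw [hy]; rfl
    rw [e.fderiv_eq]
    have h1 : DifferentiableAt ℝ (fun y => fderiv ℝ F y (dir p.2)) z :=
      (diff_fd hF).clm_apply (differentiableAt_const _)
    have h2 : DifferentiableAt ℝ (fun y => fderiv ℝ G y (dir p.2)) z :=
      (diff_fd hG).clm_apply (differentiableAt_const _)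
    have h3 : fderiv ℝ (fun y => fderiv ℝ F y (dir p.2) + fderiv ℝ G y (dir p.2)) z = _ :=
      (h1.hasFDerivAt.add h2.hasFDerivAt).fderiv
    rw [h3]; rfl

theorem jx_smul (μ : JI n) (c : ℝ) (hF : ContDiffAt ℝ 2 F z) :
    jx μ (fun y => c • F y) z = c • jx μ F z :=
  jx_clm μ (c • ContinuousLinearMap.id ℝ W) hF

variable [CompleteSpace W]

theorem sm_eq {b : JI n → JI n → Cm n → ℝ}
    (hb : ∀ (f h : Cm n → ℝ) (z : Cm n), z ∈ U → ContDiffAt ℝ 2 f z → ContDiffAt ℝ 2 h z →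
      D f h z = ∑ μ, ∑ ν, b μ ν z * (jx μ f z * jx ν h z)) (hz : z ∈ U)
    (hF : ContDiffAt ℝ 2 F z) (hG : ContDiffAt ℝ 2 G z) :
    sm e D F G z = ∑ μ, ∑ ν, b μ ν z * ⟪jx μ F z, jx ν G z⟫_ℝ :=
  (hasSum_jd e hb hz hF hG).tsum_eq

theorem sm_hasSum (hD : IsJD U D) (hz : z ∈ U) (hF : ContDiffAt ℝ 2 F z)
    (hG : ContDiffAt ℝ 2 G z) :
    HasSum (fun i => D (cp (e i) F) (cp (e i) G) z) (sm e D F G z) := by
  obtain ⟨b, -, hb⟩ := hD
  have h := hasSum_jd e hb hz hF hG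
  rwa [← h.tsum_eq] at h

/-- `sm` with the density `f h` is the scalar product -/
theorem sm_val (F G : Cm n → W) (z : Cm n) : sm e (fun f h z => f z * h z) F G z = ⟪F z, G z⟫_ℝ :=
  (hasSum_ip e (F z) (G z)).tsum_eq

theorem sm_cont (hD : IsJD U D) (hF : ∀ z ∈ U, ContDiffAt ℝ ∞ F z)
    (hG : ∀ z ∈ U, ContDiffAt ℝ ∞ G z) : ContinuousOn (sm e D F G) U := by
  obtain ⟨b, hc, hb⟩ := hD
  have h : ContinuousOn (fun z => ∑ μ, ∑ ν, b μ ν z * ⟪jx μ F z, jx ν G z⟫_ℝ) U :=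
    continuousOn_finsetSum _ fun μ _ => continuousOn_finsetSum _ fun ν _ =>
      (hc μ ν).mul ((jx_cont μ hF).inner (𝕜 := ℝ) (jx_cont ν hG))
  refine h.congr fun z hz => ?_
  exact sm_eq e hb hz ((hF z hz).of_le two_le_inf)
    ((hG z hz).of_le two_le_inf)

/-- invariance under an isometry -/
theorem sm_iso (hD : IsJD U D) (hz : z ∈ U) (hF : ContDiffAt ℝ 2 F z) (hG : ContDiffAt ℝ 2 G z)
    (L : W ≃ₗᵢ[ℝ] W) : sm e D (fun y => L (F y)) (fun y => L (G y)) z = sm e D F G z := by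
  obtain ⟨b, hc, hb⟩ := hD
  have hLF : ContDiffAt ℝ 2 (fun y => L (F y)) z :=
    (L.toContinuousLinearEquiv.contDiff.contDiffAt).comp z hF
  have hLG : ContDiffAt ℝ 2 (fun y => L (G y)) z :=
    (L.toContinuousLinearEquiv.contDiff.contDiffAt).comp z hG
  rw [sm_eq e hb hz hF hG, sm_eq e hb hz hLF hLG]
  simp only [jx_comp_iso _ L hF, jx_comp_iso _ L hG, L.inner_map_map]

theorem sm_congr (hF : F =ᶠ[𝓝 z] F') (hG : G =ᶠ[𝓝 z] G') (hD : IsJD U D) (hz : z ∈ U)
    (hF' : ContDiffAt ℝ 2 F' z) (hG' : ContDiffAt ℝ 2 G' z) : sm e D F G z = sm e D F' G' z := by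
  obtain ⟨b, hc, hb⟩ := hD
  rw [sm_eq e hb hz (hF'.congr_of_eventuallyEq hF) (hG'.congr_of_eventuallyEq hG),
    sm_eq e hb hz hF' hG']
  simp only [jx_congr _ hF, jx_congr _ hG]

/-- congruence for densities which only depend on germs -/
theorem sm_congr' (hD : ∀ f f' g g' : Cm n → ℝ, f =ᶠ[𝓝 z] f' → g =ᶠ[𝓝 z] g' →
    D f g z = D f' g' z) (hF : F =ᶠ[𝓝 z] F') (hG : G =ᶠ[𝓝 z] G') :
    sm e D F G z = sm e D F' G' z := by
  unfold sm
  exact tsum_congr fun i => hD _ _ _ _ (cp_congr _ hF) (cp_congr _ hG)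

theorem sm_symm (hD : ∀ f g : Cm n → ℝ, D f g z = D g f z) (F G : Cm n → W) :
    sm e D F G z = sm e D G F z :=
  tsum_congr fun _ => hD _ _

theorem sm_nonneg (hD : ∀ f : Cm n → ℝ, ContDiffAt ℝ ∞ f z → 0 ≤ D f f z)
    (hF : ContDiffAt ℝ ∞ F z) : 0 ≤ sm e D F F z :=
  tsum_nonneg fun i => hD _ (cp_smooth _ hF)

theorem sm_add_left (hD : IsJD U D) (hz : z ∈ U) (hF : ContDiffAt ℝ 2 F z)
    (hF' : ContDiffAt ℝ 2 F' z) (hG : ContDiffAt ℝ 2 G z) :
    sm e D (fun y => F y + F' y) G z = sm e D F G z + sm e D F' G z := by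
  obtain ⟨b, hc, hb⟩ := hD
  rw [sm_eq e hb hz hF hG, sm_eq e hb hz hF' hG, sm_eq e hb hz (hF.add hF') hG]
  simp only [jx_add _ hF hF', inner_add_left, mul_add, Finset.sum_add_distrib]

theorem sm_add_right (hD : IsJD U D) (hz : z ∈ U) (hF : ContDiffAt ℝ 2 F z)
    (hG : ContDiffAt ℝ 2 G z) (hG' : ContDiffAt ℝ 2 G' z) :
    sm e D F (fun y => G y + G' y) z = sm e D F G z + sm e D F G' z := by
  obtain ⟨b, hc, hb⟩ := hD
  rw [sm_eq e hb hz hF hG, sm_eq e hb hz hF hG', sm_eq e hb hz hF (hG.add hG')]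
  simp only [jx_add _ hG hG', inner_add_right, mul_add, Finset.sum_add_distrib]

theorem sm_smul_left (hD : IsJD U D) (hz : z ∈ U) (c : ℝ) (hF : ContDiffAt ℝ 2 F z)
    (hG : ContDiffAt ℝ 2 G z) : sm e D (fun y => c • F y) G z = c * sm e D F G z := by
  obtain ⟨b, hc, hb⟩ := hD
  rw [sm_eq e hb hz hF hG, sm_eq e hb hz (hF.const_smul c) hG]
  simp only [jx_smul _ c hF, real_inner_smul_left, Finset.mul_sum]
  exact Finset.sum_congr rfl fun _ _ => Finset.sum_congr rfl fun _ _ => by ring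

theorem sm_smul_right (hD : IsJD U D) (hz : z ∈ U) (c : ℝ) (hF : ContDiffAt ℝ 2 F z)
    (hG : ContDiffAt ℝ 2 G z) : sm e D F (fun y => c • G y) z = c * sm e D F G z := by
  obtain ⟨b, hc, hb⟩ := hD
  rw [sm_eq e hb hz hF hG, sm_eq e hb hz hF (hG.const_smul c)]
  simp only [jx_smul _ c hG, real_inner_smul_right, Finset.mul_sum]
  exact Finset.sum_congr rfl fun _ _ => Finset.sum_congr rfl fun _ _ => by ring

theorem sm_sum_left {κ : Type*} (s : Finset κ) {H : κ → Cm n → W} (hD : IsJD U D) (hz : z ∈ U)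
    (hH : ∀ i ∈ s, ContDiffAt ℝ 2 (H i) z) (hG : ContDiffAt ℝ 2 G z) :
    sm e D (fun y => ∑ i ∈ s, H i y) G z = ∑ i ∈ s, sm e D (H i) G z := by
  classical
  induction s using Finset.induction_on with
  | empty =>
    have := sm_smul_left e hD hz 0 hG hG
    simp only [zero_smul, zero_mul] at this
    simpa using this
  | insert i s hi ih =>
    simp only [Finset.sum_insert hi]
    rw [sm_add_left e hD hz (hH i (Finset.mem_insert_self i s))
      (ContDiffAt.sum fun j hj => hH j (Finset.mem_insert_of_mem hj)) hG,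
      ih fun j hj => hH j (Finset.mem_insert_of_mem hj)]

/-- polarised Cauchy-Schwarz for a nonnegative symmetric density -/
theorem sm_young (hD : IsJD U D) (hz : z ∈ U) (hs : ∀ f g : Cm n → ℝ, D f g z = D g f z)
    (hp : ∀ f : Cm n → ℝ, ContDiffAt ℝ ∞ f z → 0 ≤ D f f z) (hF : ContDiffAt ℝ ∞ F z)
    (hG : ContDiffAt ℝ ∞ G z) : 2 * |sm e D F G z| ≤ sm e D F F z + sm e D G G z := by
  have hF2 := hF.of_le two_le_inf
  have hG2 := hG.of_le two_le_inf
  have h1 := sm_nonneg e hp (hF.add hG)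
  have h2 := sm_nonneg e hp (hF.add (hG.const_smul (-1 : ℝ)))
  have e1 : sm e D (fun y => F y + G y) (fun y => F y + G y) z =
      sm e D F F z + 2 * sm e D F G z + sm e D G G z := by
    rw [sm_add_left e hD hz hF2 hG2 (hF2.add hG2), sm_add_right e hD hz hF2 hF2 hG2,
      sm_add_right e hD hz hG2 hF2 hG2, sm_symm e hs G F]; ring
  have e2 : sm e D (fun y => F y + (-1 : ℝ) • G y) (fun y => F y + (-1 : ℝ) • G y) z =
      sm e D F F z - 2 * sm e D F G z + sm e D G G z := by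
    have hG' : ContDiffAt ℝ 2 (fun y => (-1 : ℝ) • G y) z := hG2.const_smul _
    rw [sm_add_left e hD hz hF2 hG' (hF2.add hG'), sm_add_right e hD hz hF2 hF2 hG',
      sm_add_right e hD hz hG' hF2 hG', sm_smul_left e hD hz _ hG2 hF2,
      sm_smul_left e hD hz _ hG2 hG', sm_smul_right e hD hz _ hF2 hG2,
      sm_smul_right e hD hz _ hG2 hG2, sm_symm e hs G F]; ring
  have h1' : 0 ≤ sm e D F F z + 2 * sm e D F G z + sm e D G G z := e1 ▸ h1
  have h2' : 0 ≤ sm e D F F z - 2 * sm e D F G z + sm e D G G z := e2 ▸ h2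
  rcases abs_cases (sm e D F G z) with ⟨h, -⟩ | ⟨h, -⟩ <;> rw [h] <;> linarith

end basis

/-! ### The Laplacian -/

section laplacian
variable {n : ℕ} {U : Set (Cm n)} {W : Type} [NormedAddCommGroup W] [InnerProductSpace ℝ W]
  {ι : Type} {F G F' G' : Cm n → W} {z : Cm n} {w w' : Cm n → Matrix (Fin n) (Fin n) ℂ}

theorem lap_X2 {f : Cm n → ℝ} (hf : ContDiffAt ℝ 2 f z) :
    lap w f z = ∑ j, ∑ k, (1 / 4 : ℝ) *
      (((w z)⁻¹ k j).re * (X2 (j, false) (k, false) f z + X2 (j, true) (k, true) f z) -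
        ((w z)⁻¹ k j).im * (X2 (j, false) (k, true) f z - X2 (j, true) (k, false) f z)) := by
  simp only [lap, Matrix.trace, Matrix.diag_apply, Matrix.mul_apply, Complex.re_sum]
  rw [Finset.sum_comm]
  refine Finset.sum_congr rfl fun j _ => Finset.sum_congr rfl fun k _ => ?_
  rw [cHess_X2 hf]
  simp only [Complex.mul_re, Complex.mul_im, Complex.add_re, Complex.add_im, Complex.ofReal_re,
    Complex.ofReal_im, Complex.I_re, Complex.I_im, Complex.div_re, Complex.div_im, Complex.one_re,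
    Complex.one_im, Complex.normSq_ofNat, Complex.re_ofNat, Complex.im_ofNat]
  ring

theorem inner_lapW (c : W) (hF : ContDiffAt ℝ 2 F z) :
    ⟪c, lapW w F z⟫_ℝ = lap w (cp c F) z := by
  rw [lap_X2 (cp_smooth c hF)]
  have h : ∀ d d', X2 d d' (cp c F) z = ⟪c, X2 d d' F z⟫_ℝ := fun d d' =>
    jx_cp (.inr (.inr (d, d'))) c hF
  simp only [lapW, inner_sum, inner_smul_right, inner_sub_right, inner_add_right, h]

theorem lapW_smooth (hw : KU U w) (hz : z ∈ U) (hF : ContDiffAt ℝ ∞ F z) :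
    ContDiffAt ℝ ∞ (lapW w F) z := by
  have hX : ∀ d d', ContDiffAt ℝ ∞ (X2 d d' F) z := fun d d' => jx_smooth (.inr (.inr (d, d'))) hF
  have hi := Vale.Agent.P284.H639.V.KU_inv hw hz
  have hre : ∀ k j, ContDiffAt ℝ ∞ (fun y => ((w y)⁻¹ k j).re) z := fun k j =>
    Complex.reCLM.contDiff.contDiffAt.comp z (hi k j)
  have him : ∀ k j, ContDiffAt ℝ ∞ (fun y => ((w y)⁻¹ k j).im) z := fun k j =>
    Complex.imCLM.contDiff.contDiffAt.comp z (hi k j)
  unfold lapW
  exact ContDiffAt.sum fun j _ => ContDiffAt.sum fun k _ => ContDiffAt.const_smul _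
    (((hre k j).smul ((hX _ _).add (hX _ _))).sub ((him k j).smul ((hX _ _).sub (hX _ _))))

theorem lapW_congr (e : F =ᶠ[𝓝 z] F') : lapW w F z = lapW w F' z := by
  have h : ∀ d d', X2 d d' F z = X2 d d' F' z := fun d d' => jx_congr (.inr (.inr (d, d'))) e
  simp only [lapW, h]

theorem lapW_clm {W' : Type} [NormedAddCommGroup W'] [InnerProductSpace ℝ W'] (L : W →L[ℝ] W')
    (hF : ContDiffAt ℝ 2 F z) : lapW w (fun y => L (F y)) z = L (lapW w F z) := by
  have h : ∀ d d', X2 d d' (fun y => L (F y)) z = L (X2 d d' F z) := fun d d' =>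
    jx_clm (.inr (.inr (d, d'))) L hF
  simp only [lapW, h, map_sum, map_smul, map_sub, map_add]

theorem lapW_iso (L : W ≃ₗᵢ[ℝ] W) (hF : ContDiffAt ℝ 2 F z) :
    lapW w (fun y => L (F y)) z = L (lapW w F z) :=
  lapW_clm (L.toContinuousLinearEquiv : W →L[ℝ] W) hF

theorem lapW_add (hF : ContDiffAt ℝ 2 F z) (hG : ContDiffAt ℝ 2 G z) :
    lapW w (fun y => F y + G y) z = lapW w F z + lapW w G z := by
  have h : ∀ d d', X2 d d' (fun y => F y + G y) z = X2 d d' F z + X2 d d' G z := fun d d' =>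
    jx_add (.inr (.inr (d, d'))) hF hG
  simp only [lapW, h, ← Finset.sum_add_distrib]
  exact Finset.sum_congr rfl fun j _ => Finset.sum_congr rfl fun k _ => by module

theorem lapW_smul (c : ℝ) (hF : ContDiffAt ℝ 2 F z) :
    lapW w (fun y => c • F y) z = c • lapW w F z :=
  lapW_clm (c • ContinuousLinearMap.id ℝ W) hF

theorem lapW_zero : lapW w (fun _ => (0 : W)) z = 0 := by
  have := lapW_smul (w := w) (z := z) (F := fun _ : Cm n => (0 : W)) 0 contDiffAt_const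
  simpa using this

theorem lapW_sum {κ : Type*} (s : Finset κ) {H : κ → Cm n → W}
    (hH : ∀ i ∈ s, ContDiffAt ℝ 2 (H i) z) :
    lapW w (fun y => ∑ i ∈ s, H i y) z = ∑ i ∈ s, lapW w (H i) z := by
  classical
  induction s using Finset.induction_on with
  | empty => simpa using lapW_zero
  | insert i s hi ih =>
    simp only [Finset.sum_insert hi]
    rw [lapW_add (hH i (Finset.mem_insert_self i s))
      (ContDiffAt.sum fun j hj => hH j (Finset.mem_insert_of_mem hj)),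
      ih fun j hj => hH j (Finset.mem_insert_of_mem hj)]

theorem hasSum_lapW (e : HilbertBasis ι ℝ W) (hF : ContDiffAt ℝ 2 F z) (y : W) :
    HasSum (fun i => lap w (cp (e i) F) z * ⟪e i, y⟫_ℝ) ⟪lapW w F z, y⟫_ℝ := by
  have h := hasSum_ip e (lapW w F z) y
  simpa only [inner_lapW _ hF] using h

/-- the hypotheses of a holomorphic change of coordinates -/
structure Tr (w w' : Cm n → Matrix (Fin n) (Fin n) ℂ) (T : Cm n → Cm n) (z : Cm n) : Prop where
  holo : ∀ᶠ y in 𝓝 z, DifferentiableAt ℂ T y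
  pos : (w z).PosDef
  pos' : (w' (T z)).PosDef
  change : w z = (Matrix.of fun p i => dz i (fun y => T y p) z).transpose * w' (T z) *
      (Matrix.of fun p i => dz i (fun y => T y p) z).map (starRingEnd ℂ)

variable {T : Cm n → Cm n}

theorem lapW_trans (t : Tr w w' T z) (hF : ContDiffAt ℝ ∞ F z) (hF' : ContDiffAt ℝ ∞ F' (T z))
    (e : ∀ᶠ y in 𝓝 z, F y = F' (T y)) : lapW w F z = lapW w' F' (T z) := by
  refine ext_inner_left ℝ fun c => ?_
  rw [inner_lapW c (hF.of_le two_le_inf), inner_lapW c (hF'.of_le two_le_inf)]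
  exact (Vale.Agent.P284.H730.V.vpStmt.trans w w' (cp c F) (cp c F) (cp c F') (cp c F') T z t.holo
    t.pos t.pos' t.change (cp_smooth c hF') (cp_smooth c hF')
    (by filter_upwards [e] with y hy; simp only [cp, hy])
    (by filter_upwards [e] with y hy; simp only [cp, hy])).1

variable [CompleteSpace W]

theorem sm_gr_trans (b : HilbertBasis ι ℝ W) (t : Tr w w' T z) (hF' : ContDiffAt ℝ ∞ F' (T z))
    (hG' : ContDiffAt ℝ ∞ G' (T z)) (e : ∀ᶠ y in 𝓝 z, F y = F' (T y))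
    (e' : ∀ᶠ y in 𝓝 z, G y = G' (T y)) : sm b (gr w) F G z = sm b (gr w') F' G' (T z) :=
  tsum_congr fun i => (Vale.Agent.P284.H730.V.vpStmt.trans w w' (cp (b i) F) (cp (b i) G)
    (cp (b i) F') (cp (b i) G') T z t.holo
    t.pos t.pos' t.change (cp_smooth _ hF') (cp_smooth _ hG')
    (by filter_upwards [e] with y hy; simp only [cp, hy])
    (by filter_upwards [e'] with y hy; simp only [cp, hy])).2.1

theorem sm_hh_trans (b : HilbertBasis ι ℝ W) (t : Tr w w' T z) (hF' : ContDiffAt ℝ ∞ F' (T z))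
    (hG' : ContDiffAt ℝ ∞ G' (T z)) (e : ∀ᶠ y in 𝓝 z, F y = F' (T y))
    (e' : ∀ᶠ y in 𝓝 z, G y = G' (T y)) : sm b (hh w) F G z = sm b (hh w') F' G' (T z) :=
  tsum_congr fun i => (Vale.Agent.P284.H730.V.vpStmt.trans w w' (cp (b i) F) (cp (b i) G)
    (cp (b i) F') (cp (b i) G') T z t.holo
    t.pos t.pos' t.change (cp_smooth _ hF') (cp_smooth _ hG')
    (by filter_upwards [e] with y hy; simp only [cp, hy])
    (by filter_upwards [e'] with y hy; simp only [cp, hy])).2.2.1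

end laplacian

/-! ### Exchange of sums and integrals -/

section integrals
variable {n : ℕ} {U V Q : Set (Cm n)} {W : Type} [NormedAddCommGroup W] [InnerProductSpace ℝ W]
  {ι : Type}

theorem intOn_of {E : Type*} [NormedAddCommGroup E] {g : Cm n → E} (hg : ContinuousOn g U)
    (hQ : IsCompact Q) (hQU : Q ⊆ U) (hV : MeasurableSet V) (h0 : ∀ z ∈ V, z ∉ Q → g z = 0) :
    IntegrableOn g V :=
  ((hg.mono hQU).integrableOn_compact hQ).of_forall_sdiff_eq_zero hV fun z hz => h0 z hz.1 hz.2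

theorem hasSum_int_ip [Countable ι] (e : HilbertBasis ι ℝ W) {x y : Cm n → W} {ψ : Cm n → ℝ}
    (hx : ContinuousOn x U) (hy : ContinuousOn y U) (hψ : ContinuousOn ψ U)
    (hQ : IsCompact Q) (hQU : Q ⊆ U) (hV : MeasurableSet V) (h0 : ∀ z ∈ V, z ∉ Q → ψ z = 0) :
    HasSum (fun i => ∫ z in V, ψ z * (⟪e i, x z⟫_ℝ * ⟪e i, y z⟫_ℝ))
      (∫ z in V, ψ z * ⟪x z, y z⟫_ℝ) := by
  have hcx : ∀ i, ContinuousOn (fun z => ⟪e i, x z⟫_ℝ) U := fun i => continuousOn_const.inner (𝕜 := ℝ) hx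
  have hcy : ∀ i, ContinuousOn (fun z => ⟪e i, y z⟫_ℝ) U := fun i => continuousOn_const.inner (𝕜 := ℝ) hy
  have hs : ∀ v : W, HasSum (fun i => ⟪e i, v⟫_ℝ ^ 2) (‖v‖ ^ 2) := fun v => by
    have := hasSum_ip e v v
    rw [real_inner_self_eq_norm_sq] at this
    simpa only [pow_two] using this
  have hbs : ∀ z, HasSum (fun i => |ψ z| * (⟪e i, x z⟫_ℝ ^ 2 + ⟪e i, y z⟫_ℝ ^ 2))
      (|ψ z| * (‖x z‖ ^ 2 + ‖y z‖ ^ 2)) := fun z => ((hs (x z)).add (hs (y z))).mul_left _
  refine hasSum_integral_of_dominated_convergence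
    (bound := fun i z => |ψ z| * (⟪e i, x z⟫_ℝ ^ 2 + ⟪e i, y z⟫_ℝ ^ 2)) ?_ ?_ ?_ ?_ ?_
  · intro i
    have : IntegrableOn (fun z => ψ z * (⟪e i, x z⟫_ℝ * ⟪e i, y z⟫_ℝ)) V :=
      intOn_of (hψ.mul ((hcx i).mul (hcy i))) hQ hQU hV fun z hz hz' => by
        simp only [h0 z hz hz', zero_mul]
    exact this.aestronglyMeasurable
  · intro i
    refine Eventually.of_forall fun z => ?_
    rw [Real.norm_eq_abs, abs_mul]
    refine mul_le_mul_of_nonneg_left ?_ (abs_nonneg _)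
    rw [abs_mul]
    nlinarith [sq_nonneg (|⟪e i, x z⟫_ℝ| - |⟪e i, y z⟫_ℝ|), sq_abs ⟪e i, x z⟫_ℝ,
      sq_abs ⟪e i, y z⟫_ℝ, sq_nonneg (|⟪e i, x z⟫_ℝ| + |⟪e i, y z⟫_ℝ|)]
  · exact Eventually.of_forall fun z => (hbs z).summable
  · simp only [(hbs _).tsum_eq]
    exact intOn_of (hψ.abs.mul ((hx.norm.pow 2).add (hy.norm.pow 2))) hQ hQU hV fun z hz hz' => by
      rw [h0 z hz hz', abs_zero, zero_mul]
  · exact Eventually.of_forall fun z => (hasSum_ip e (x z) (y z)).mul_left _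

variable [CompleteSpace W] {D : (Cm n → ℝ) → (Cm n → ℝ) → Cm n → ℝ} {F G : Cm n → W}

theorem hasSum_int_sm [Countable ι] (e : HilbertBasis ι ℝ W) (hD : IsJD U D)
    (hF : ∀ z ∈ U, ContDiffAt ℝ ∞ F z) (hG : ∀ z ∈ U, ContDiffAt ℝ ∞ G z) {φ : Cm n → ℝ}
    (hφ : ContinuousOn φ U) (hQ : IsCompact Q) (hQU : Q ⊆ U) (hV : MeasurableSet V) (hVU : V ⊆ U)
    (h0 : ∀ z ∈ V, z ∉ Q → φ z = 0) :
    HasSum (fun i => ∫ z in V, φ z * D (cp (e i) F) (cp (e i) G) z)
      (∫ z in V, φ z * sm e D F G z) := by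
  obtain ⟨b, hc, hb⟩ := hD
  have hF2 : ∀ z ∈ U, ContDiffAt ℝ 2 F z := fun z hz => (hF z hz).of_le two_le_inf
  have hG2 : ∀ z ∈ U, ContDiffAt ℝ 2 G z := fun z hz => (hG z hz).of_le two_le_inf
  have e1 : ∀ i, ∫ z in V, φ z * D (cp (e i) F) (cp (e i) G) z = ∑ μ, ∑ ν,
      ∫ z in V, (φ z * b μ ν z) * (⟪e i, jx μ F z⟫_ℝ * ⟪e i, jx ν G z⟫_ℝ) := by
    intro i
    have hint : ∀ μ ν, IntegrableOn
        (fun z => (φ z * b μ ν z) * (⟪e i, jx μ F z⟫_ℝ * ⟪e i, jx ν G z⟫_ℝ)) V := fun μ ν =>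
      intOn_of ((hφ.mul (hc μ ν)).mul ((continuousOn_const.inner (𝕜 := ℝ) (jx_cont μ hF)).mul
        (continuousOn_const.inner (𝕜 := ℝ) (jx_cont ν hG)))) hQ hQU hV fun z hz hz' => by
          rw [h0 z hz hz', zero_mul, zero_mul]
    have : ∀ μ, ∑ ν, ∫ z in V, (φ z * b μ ν z) * (⟪e i, jx μ F z⟫_ℝ * ⟪e i, jx ν G z⟫_ℝ) =
        ∫ z in V, ∑ ν, (φ z * b μ ν z) * (⟪e i, jx μ F z⟫_ℝ * ⟪e i, jx ν G z⟫_ℝ) := fun μ =>
      (integral_finsetSum _ fun ν _ => hint μ ν).symm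
    rw [Finset.sum_congr rfl fun μ _ => this μ,
      ← integral_finsetSum _ fun μ _ => integrable_finsetSum _ fun ν _ => hint μ ν]
    refine setIntegral_congr_fun hV fun z hz => ?_
    show φ z * D (cp (e i) F) (cp (e i) G) z = _
    rw [hb _ _ z (hVU hz) (cp_smooth _ (hF2 z (hVU hz))) (cp_smooth _ (hG2 z (hVU hz))),
      Finset.mul_sum]
    refine Finset.sum_congr rfl fun μ _ => ?_
    rw [Finset.mul_sum]
    refine Finset.sum_congr rfl fun ν _ => ?_
    rw [jx_cp _ _ (hF2 z (hVU hz)), jx_cp _ _ (hG2 z (hVU hz))]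
    ring
  have e2 : ∫ z in V, φ z * sm e D F G z = ∑ μ, ∑ ν,
      ∫ z in V, (φ z * b μ ν z) * ⟪jx μ F z, jx ν G z⟫_ℝ := by
    have hint : ∀ μ ν, IntegrableOn (fun z => (φ z * b μ ν z) * ⟪jx μ F z, jx ν G z⟫_ℝ) V :=
      fun μ ν => intOn_of ((hφ.mul (hc μ ν)).mul ((jx_cont μ hF).inner (𝕜 := ℝ) (jx_cont ν hG))) hQ hQU hV
        fun z hz hz' => by rw [h0 z hz hz', zero_mul, zero_mul]
    have : ∀ μ, ∑ ν, ∫ z in V, (φ z * b μ ν z) * ⟪jx μ F z, jx ν G z⟫_ℝ =
        ∫ z in V, ∑ ν, (φ z * b μ ν z) * ⟪jx μ F z, jx ν G z⟫_ℝ := fun μ =>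
      (integral_finsetSum _ fun ν _ => hint μ ν).symm
    rw [Finset.sum_congr rfl fun μ _ => this μ,
      ← integral_finsetSum _ fun μ _ => integrable_finsetSum _ fun ν _ => hint μ ν]
    refine setIntegral_congr_fun hV fun z hz => ?_
    show φ z * sm e D F G z = _
    rw [sm_eq e hb (hVU hz) (hF2 z (hVU hz)) (hG2 z (hVU hz)), Finset.mul_sum]
    refine Finset.sum_congr rfl fun μ _ => ?_
    rw [Finset.mul_sum]
    exact Finset.sum_congr rfl fun ν _ => by ring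
  rw [e2, funext e1]
  exact hasSum_sum fun μ _ => hasSum_sum fun ν _ => hasSum_int_ip e (jx_cont μ hF) (jx_cont ν hG)
    (hφ.mul (hc μ ν)) hQ hQU hV fun z hz hz' => by rw [h0 z hz hz', zero_mul]

end integrals

/-! ### Equivariant families -/

section families
variable {n : ℕ} {Γ : Type} [Group Γ] {W : Type} [NormedAddCommGroup W] [InnerProductSpace ℝ W]
  {ι : Type} {C : Coc n Γ} {π : Γ →* (W ≃ₗᵢ[ℝ] W)} {f h : C.I → Cm n → W}

theorem K_sub_Ω (P : PU C) (a : C.I) : P.K a ⊆ C.Ω a :=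
  (P.K_sub a).trans (Vale.Agent.P284.H639.V.V_sub_Ω C a)

theorem chi_zero (P : PU C) {a : C.I} {z : Cm n} (hz : z ∈ C.Ω a) (h : z ∉ P.K a) :
    P.χ a a z = 0 := by
  by_contra hne
  obtain ⟨h1, h2⟩ := P.supp a a z hz hne
  rw [C.T_self a z h1] at h2
  exact h h2

/-- the weight of the integral -/
theorem wt_cont (P : PU C) (K : KM C) (a : C.I) :
    ContinuousOn (fun z => P.χ a a z * vol (K.w a) z) (C.Ω a) := fun z hz =>
  ((P.smooth a a z hz).mul (Vale.Agent.P284.H639.V.smooth_vol (K.ku a) hz)).continuousAt.continuousWithinAt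

theorem wt_zero (P : PU C) (K : KM C) {a : C.I} {z : Cm n} (hz : z ∈ C.V a) (h : z ∉ P.K a) :
    P.χ a a z * vol (K.w a) z = 0 := by
  rw [chi_zero P (Vale.Agent.P284.H639.V.V_sub_Ω C a hz) h, zero_mul]

theorem tr_of (K : KM C) {a b : C.I} {z : Cm n} (hz : z ∈ C.O a b) :
    Tr (K.w a) (K.w b) (C.T a b) z where
  holo := by
    filter_upwards [(C.O_open a b).mem_nhds hz] with y hy
    exact (C.T_holo a b).differentiableAt ((C.O_open a b).mem_nhds hy)
  pos := (K.ku a).pos z (Vale.Agent.P284.H639.V.O_sub_Ω C hz)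
  pos' := (K.ku b).pos _ (Vale.Agent.P284.H639.V.T_mem_Ω C hz)
  change := K.change a b z hz

theorem ET.compat_ev (hf : ET C π f) {a b : C.I} {z : Cm n} (hz : z ∈ C.O a b) :
    ∀ᶠ y in 𝓝 z, f a y = π (C.κ a b z) (f b (C.T a b y)) := by
  filter_upwards [(C.O_open a b).mem_nhds hz, C.κ_loc a b z hz] with y hy hk
  rw [hf.compat a b y hy, hk]

theorem iso_smooth {F : Cm n → W} {z : Cm n} (L : W ≃ₗᵢ[ℝ] W) {k : WithTop ℕ∞}
    (hF : ContDiffAt ℝ k F z) : ContDiffAt ℝ k (fun y => L (F y)) z :=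
  (L.toContinuousLinearEquiv.contDiff.contDiffAt).comp z hF

theorem ET.add (hf : ET C π f) (hh' : ET C π h) : ET C π (fun a z => f a z + h a z) where
  smooth a z hz := (hf.smooth a z hz).add (hh'.smooth a z hz)
  compat a b z hz := by rw [hf.compat a b z hz, hh'.compat a b z hz, map_add]
  out a z hz := by rw [hf.out a z hz, hh'.out a z hz, add_zero]

theorem ET.smul (c : ℝ) (hf : ET C π f) : ET C π (fun a z => c • f a z) where
  smooth a z hz := (hf.smooth a z hz).const_smul c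
  compat a b z hz := by rw [hf.compat a b z hz, map_smul]
  out a z hz := by rw [hf.out a z hz, smul_zero]

theorem ET.zero : ET C π (fun _ _ => (0 : W)) where
  smooth a z hz := contDiffAt_const
  compat a b z hz := by rw [map_zero]
  out a z hz := rfl

/-- product with a smooth invariant function -/
theorem ET.mul {χ : C.I → Cm n → ℝ} (hχ : ∀ a, ∀ z ∈ C.Ω a, ContDiffAt ℝ ∞ (χ a) z)
    (hc : ∀ a b, ∀ z ∈ C.O a b, χ a z = χ b (C.T a b z)) (hf : ET C π f) :
    ET C π (fun a z => χ a z • f a z) where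
  smooth a z hz := (hχ a z hz).smul (hf.smooth a z hz)
  compat a b z hz := by rw [hf.compat a b z hz, hc a b z hz, map_smul]
  out a z hz := by rw [hf.out a z hz, smul_zero]

variable (C π W) in
/-- the space of smooth equivariant families -/
def VT : Submodule ℝ (C.I → Cm n → W) where
  carrier := {f | ET C π f}
  add_mem' := fun hf hg => ET.add hf hg
  zero_mem' := ET.zero
  smul_mem' := fun c _ hf => ET.smul c hf

theorem LapW_mem (K : KM C) {a : C.I} {z : Cm n} (hz : z ∈ C.Ω a) :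
    LapW K f a z = lapW (K.w a) (f a) z := by
  unfold LapW
  exact indicator_of_mem hz _

theorem LapW_ev (K : KM C) {a : C.I} {z : Cm n} (hz : z ∈ C.Ω a) :
    LapW K f a =ᶠ[𝓝 z] lapW (K.w a) (f a) := by
  filter_upwards [(Vale.Agent.P284.H639.V.isOpen_Ω C a).mem_nhds hz] with y hy
  exact LapW_mem K hy

theorem ET.lap (K : KM C) (hf : ET C π f) : ET C π (LapW K f) where
  smooth a z hz := (lapW_smooth (K.ku a) hz (hf.smooth a z hz)).congr_of_eventuallyEq (LapW_ev K hz)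
  compat a b z hz := by
    have hzb := Vale.Agent.P284.H639.V.T_mem_Ω C hz
    rw [LapW_mem K (Vale.Agent.P284.H639.V.O_sub_Ω C hz), LapW_mem K hzb]
    rw [lapW_trans (F' := fun y => π (C.κ a b z) (f b y)) (tr_of K hz)
      (hf.smooth a z (Vale.Agent.P284.H639.V.O_sub_Ω C hz)) (iso_smooth _ (hf.smooth b _ hzb))
      (hf.compat_ev hz)]
    exact lapW_iso _ ((hf.smooth b _ hzb).of_le two_le_inf)
  out a z hz := by
    unfold LapW
    exact indicator_of_notMem hz _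

theorem fam_ip (hf : ET C π f) (hh' : ET C π h) : FamX C (fun a z => ⟪f a z, h a z⟫_ℝ) where
  cont a z hz := ((hf.smooth a z hz).inner ℝ (hh'.smooth a z hz)).continuousAt.continuousWithinAt
  compat a b z hz := by rw [hf.compat a b z hz, hh'.compat a b z hz, LinearIsometryEquiv.inner_map_map]

variable [CompleteSpace W] (e : HilbertBasis ι ℝ W)

theorem fam_gr (K : KM C) (hf : ET C π f) (hh' : ET C π h) : FamX C (grW e K f h) where
  cont a := sm_cont e (jd_gr (K.ku a)) (hf.smooth a) (hh'.smooth a)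
  compat a b z hz := by
    have hzb := Vale.Agent.P284.H639.V.T_mem_Ω C hz
    unfold grW
    rw [sm_gr_trans e (tr_of K hz) (iso_smooth _ (hf.smooth b _ hzb))
      (iso_smooth _ (hh'.smooth b _ hzb)) (hf.compat_ev hz) (hh'.compat_ev hz)]
    exact sm_iso e (jd_gr (K.ku b)) hzb ((hf.smooth b _ hzb).of_le two_le_inf)
      ((hh'.smooth b _ hzb).of_le two_le_inf) _

theorem fam_hh (K : KM C) (hf : ET C π f) (hh' : ET C π h) : FamX C (hhW e K f h) where
  cont a := sm_cont e (jd_hh (K.ku a)) (hf.smooth a) (hh'.smooth a)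
  compat a b z hz := by
    have hzb := Vale.Agent.P284.H639.V.T_mem_Ω C hz
    unfold hhW
    rw [sm_hh_trans e (tr_of K hz) (iso_smooth _ (hf.smooth b _ hzb))
      (iso_smooth _ (hh'.smooth b _ hzb)) (hf.compat_ev hz) (hh'.compat_ev hz)]
    exact sm_iso e (jd_hh (K.ku b)) hzb ((hf.smooth b _ hzb).of_le two_le_inf)
      ((hh'.smooth b _ hzb).of_le two_le_inf) _

/-- exchange of the sum over the basis and the integral over the base -/
theorem hasSum_IntX [Countable ι] (P : PU C) (K : KM C) (hf : ∀ a, ∀ z ∈ C.Ω a, ContDiffAt ℝ ∞ (f a) z)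
    (hh' : ∀ a, ∀ z ∈ C.Ω a, ContDiffAt ℝ ∞ (h a) z)
    {D : C.I → (Cm n → ℝ) → (Cm n → ℝ) → Cm n → ℝ} (hD : ∀ a, IsJD (C.Ω a) (D a)) :
    HasSum (fun i => IntX P K fun a z => D a (cp (e i) (f a)) (cp (e i) (h a)) z)
      (IntX P K fun a z => sm e (D a) (f a) (h a) z) := by
  unfold IntX
  refine hasSum_sum fun a _ => ?_
  have := hasSum_int_sm e (hD a) (hf a) (hh' a) (wt_cont P K a) (P.compactK a) (K_sub_Ω P a)
    (V := C.V a) measurableSet_ball (Vale.Agent.P284.H639.V.V_sub_Ω C a)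
    (fun z hz hz' => wt_zero P K hz hz')
  have h1 : ∀ (q : Cm n → ℝ), (fun z => P.χ a a z * q z * vol (K.w a) z) =
      fun z => P.χ a a z * vol (K.w a) z * q z := fun q => funext fun z => by ring
  have h2 : (∫ z in C.V a, P.χ a a z * sm e (D a) (f a) (h a) z * vol (K.w a) z) =
      ∫ z in C.V a, P.χ a a z * vol (K.w a) z * sm e (D a) (f a) (h a) z := by rw [h1]
  have h3 : (fun i => ∫ z in C.V a, P.χ a a z * D a (cp (e i) (f a)) (cp (e i) (h a)) z *
      vol (K.w a) z) = fun i => ∫ z in C.V a, P.χ a a z * vol (K.w a) z *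
        D a (cp (e i) (f a)) (cp (e i) (h a)) z := by
    funext i; rw [h1]
  rw [h2, h3]
  exact this

end families


end Vale.Agent.P284.H661.T
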