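import Mathlib.Analysis.InnerProductSpace.Projection.Submodule
import Mathlib.LinearAlgebra.FiniteDimensional.Defs

/-!
# P284: property (T), the Haagerup property, groups with finite linear images
-/

open scoped InnerProductSpace

noncomputable section

namespace Vale.Agent.P284.H661.Grp

/-- Every finite dimensional real linear representation of `Q` has finite image. -/
def FiniteImages (Q : Type) [Group Q] : Prop :=
  ∀ (V : Type) [AddCommGroup V] [Module ℝ V] [FiniteDimensional ℝ V] (ρ : Q →* (V →ₗ[ℝ] V)),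
    (Set.range ρ).Finite

/-- Kazhdan's property (T): there are a finite set `S ⊆ Q` and `ε > 0` such that every orthogonal
representation of `Q` on a real Hilbert space with a unit vector which is moved by at most `ε` by the
elements of `S` has a nonzero invariant vector. -/
def PropertyT (Q : Type) [Group Q] : Prop :=
  ∃ (S : Finset Q) (ε : ℝ), 0 < ε ∧ ∀ (H : Type) [NormedAddCommGroup H] [InnerProductSpace ℝ H]
    [CompleteSpace H] (π : Q →* (H ≃ₗᵢ[ℝ] H)) (ξ : H), ‖ξ‖ = 1 → (∀ s ∈ S, ‖π s ξ - ξ‖ ≤ ε) →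
    ∃ η : H, η ≠ 0 ∧ ∀ g, π g η = η

/-- The Haagerup property (a-T-menability): for every finite `S ⊆ Q` and `ε > 0` there is an orthogonal
representation of `Q` on a real Hilbert space, whose coefficients `⟪π g x, y⟫` tend to `0` at infinity,
with a unit vector which is moved by at most `ε` by the elements of `S`. (For example `Q` amenable.) -/
def Haagerup (Q : Type) [Group Q] : Prop :=
  ∀ (S : Finset Q) (ε : ℝ), 0 < ε → ∃ (H : Type) (_ : NormedAddCommGroup H)
    (_ : InnerProductSpace ℝ H) (_ : CompleteSpace H) (π : Q →* (H ≃ₗᵢ[ℝ] H)) (ξ : H), ‖ξ‖ = 1 ∧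
    (∀ s ∈ S, ‖π s ξ - ξ‖ ≤ ε) ∧
    ∀ (x y : H) (δ : ℝ), 0 < δ → {g : Q | δ ≤ |⟪π g x, y⟫_ℝ|}.Finite

theorem PropertyT.finite {Q : Type} [Group Q] (h : PropertyT Q) (h' : Haagerup Q) : Finite Q := by
  obtain ⟨S, ε, hε, h1⟩ := h
  obtain ⟨H, _, _, _, π, ξ, hξ, hs, hc⟩ := h' S ε hε
  obtain ⟨η, hη, hi⟩ := h1 H π ξ hξ hs
  have h2 := hc η η (‖η‖ ^ 2) (by positivity)
  have h3 : {g : Q | ‖η‖ ^ 2 ≤ |⟪π g η, η⟫_ℝ|} = Set.univ := by
    ext g
    simp only [Set.mem_ofPred_eq, Set.mem_univ, iff_true, hi g]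
    rw [real_inner_self_eq_norm_sq]
    exact le_abs_self _
  rw [h3] at h2
  exact Set.finite_univ_iff.1 h2

end Vale.Agent.P284.H661.Grp
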