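import Vale.Agent.P284.H478.FinS
import Vale.Agent.P284.H212.Pos

/-! # P284 (helper661): projective data of an embedded manifold (after helper478) -/

open scoped Manifold ContDiff LinearAlgebra.Projectivization

noncomputable section

namespace Vale.Agent.P284.H661.T

open Vale.Agent.P272.K Vale.Agent.P284.H894.G Vale.Agent.P284.H478 Vale.Agent.P284.H998

theorem exists_pj {n : ℕ} {X : Type} [TopologicalSpace X] [ChartedSpace (Cm n) X] [Nonempty X]
    [IsManifold 𝓘(ℂ, Cm n) ω X] (h : Embedded n X) :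
    ∃ (ι : Type) (_ : Fintype ι), Nonempty (PJ n X ι) := by
  obtain ⟨k, Ψ, hinj, hΨ⟩ := h
  obtain ⟨D⟩ := Vale.Agent.P299.H223.projData_of hinj hΨ
  exact ⟨_, inferInstance, ⟨Vale.Agent.P284.H212.pjOf D⟩⟩

end Vale.Agent.P284.H661.T
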