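import Vale.Agent.P284.H501.T.Sp0
import Vale.Agent.P284.H837.Sp
import Vale.Agent.P284.H15.T.LimF
import Vale.Agent.P284.H812.NSF18
import Vale.Agent.P284.H661.T.Asm

/-!
# P284, theorem T2 for special manifolds
-/

noncomputable section

namespace Vale.Agent.P284.H661.T

/-- **CORE of T2** for special manifolds -/
theorem coreT2_fsp : CoreT2 H174.fspC :=
  H501.T.coreT2_sp H837.spStmt H15.T.limK H812.NSF.ns2

/-- **T2** for special manifolds -/
theorem mainPiT2_fsp : MainPiT2 H174.fspC := mainPiT2_of coreT2_fsp

end Vale.Agent.P284.H661.T
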