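import Vale.Agent.P284.H661.T.Fin

/-!
# P284, theorem T2 for special manifolds (no hypothesis on the coverings)
-/

open scoped Manifold ContDiff Topology InnerProductSpace ComplexConjugate
open Filter Set Metric

noncomputable section

namespace Vale.Agent.P284.H661.T

open Vale.Agent.P272.K Vale.Agent.P284.H248 Vale.Agent.P284.H894 Vale.Agent.P284.H894.G
  Vale.Agent.P284.H894.V Vale.Agent.P284.H894.W Vale.Agent.P284.H573 Vale.Agent.P284.H213.Grp
  Vale.Agent.P284.H213.Q Vale.Agent.P284.H619 Vale.Agent.P284.H378 Vale.Agent.P284.H998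
  Vale.Agent.P284.H501.Core Vale.Agent.P284.H573.DK Vale.Agent.P284.H551 Vale.Agent.P284.H119.Kaz
  Vale.Agent.P284.H275 Vale.Agent.P284.H837 Vale.Agent.P284.H501.T

/-- **the core for `q = 0`**, special manifolds (after helper501's `core0_sp`) -/
theorem core0_special (hSp : SpStmt) (hNS : NS2Stmt) {n : ℕ} {X : Type}
    [TopologicalSpace X] [T2Space X] [CompactSpace X] [ConnectedSpace X]
    [ChartedSpace (Cm n) X] [IsManifold 𝓘(ℂ, Cm n) ω X] {ι : Type} [Fintype ι] (J : PJ n X ι)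
    (hDX : Special n X) {w : Chart n X → Cm n → Matrix (Fin n) (Fin n) ℂ} (hw : IsKahler w)
    {E Γ : Type} [TopologicalSpace E] [ConnectedSpace E] [Group Γ] [MulAction Γ E]
    {p : E → X} (hG : IsGalois Γ p) (hfr : FinRep Γ) : ¬ Lim0Concl (n := n) (Γ := Γ) p := by
  rintro ⟨W', i1', i2', i3', π', Θ', u', hΘ', hπ', hpot', hb', hne'⟩
  obtain ⟨W, i1, i2, i3, π, Θ, u, hΘ, hπ, hpot, hb, hne, hspan⟩ :=
    exists_res0 hG.cov (fun g y => ((hG.orb y (g • y)).2 ⟨g, rfl⟩).symm) hΘ' hπ' hpot' hb' hne'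
  set F : E → Cm 0 := fun _ => 0 with hF
  obtain ⟨r, m, H, j1, j2, j3, v, U, N, 𝒢, ⟨y, hy⟩, hL⟩ :=
    leaf0_of hNS hw hG hfr hΘ hπ hpot hb hne F
  obtain ⟨C, -, -, -, -⟩ := exists_eCoc hw hG
  have hfg : Group.FG Γ := H639.V.fg_of_coc C
  refine hSp n X ι J hDX E Γ p hG 0 F (fun _ => 0) (fun y e he => ?_)
    (fun g y => by simp [hF]) H (0 + (r + 1)) m (by omega) hL.m_pos v hL.form
    (fun g => ⟨U g, fun y e he ξ => hL.equi g y e he ξ⟩) (nff_of_leaf hL hy) ?_
  · exact ⟨fun _ => 0, Eventually.of_forall fun _ => rfl, analyticAt_const⟩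
  · exact H378.T.lfin0 hG hfg hfr (t := 0) (vpot0 hΘ hpot F 0) (vequi0 hπ hb F 0 ⊤) hspan hL

/-- the class of the special manifolds -/
def spcC : Cls := fun n X _ _ => Special n X

/-- **CORE of T2** for special manifolds -/
theorem coreT2_spc : CoreT2 spcC := by
  intro n X _ _ _ _ _ _ ι _ J hDX w hw E Γ _ _ _ _ p hG hfr
  by_contra hK
  exact core0_special H837.spStmt H812.NSF.ns2 J hDX hw hG hfr (H15.T.limK n X w hw E Γ p hG hK)

/-- **T2** for special manifolds -/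
theorem mainPiT2_spc : MainPiT2 spcC := mainPiT2_of coreT2_spc

end Vale.Agent.P284.H661.T
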